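import Mathlib

/-!
# P194: idempotents in kernels of group-algebra maps

General machinery: for a group homomorphism `φ : G →* Q` with kernel `N`, the kernel `I` of
`K[G] → K[Q]` satisfies: the `N`-coordinates of `I ^ m` lie in the `m`-th power of the
augmentation ideal of `K[N]`.
-/

namespace Vale.Agent.P194

open MonoidAlgebra

variable {K : Type*} [CommRing K]

/-- The augmentation map `K[G] → K`. -/
noncomputable def aug (K : Type*) [CommRing K] (G : Type*) [Group G] :
    MonoidAlgebra K G →ₐ[K] K :=
  MonoidAlgebra.lift K K G 1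

/-- The augmentation ideal, as a `K`-submodule of `K[G]`. -/
noncomputable def augIdeal (K : Type*) [CommRing K] (G : Type*) [Group G] :
    Submodule K (MonoidAlgebra K G) :=
  LinearMap.ker (aug K G).toLinearMap

section
variable {G : Type*} [Group G]

@[simp] lemma aug_single (g : G) (r : K) : aug K G (single g r) = r := by
  simp [aug, MonoidAlgebra.lift_single]

lemma mem_augIdeal {x : MonoidAlgebra K G} : x ∈ augIdeal K G ↔ aug K G x = 0 := by
  simp [augIdeal]

lemma single_sub_one_mem (g : G) : (single g 1 - 1 : MonoidAlgebra K G) ∈ augIdeal K G := by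
  rw [mem_augIdeal, map_sub, aug_single, map_one, sub_self]

end

section maps
variable {G H : Type*} [Group G] [Group H]

lemma aug_comp_mapDomain (f : G →* H) :
    (aug K H).comp (mapDomainAlgHom K K f) = aug K G := by
  apply MonoidAlgebra.algHom_ext
  · intro m; simp
  · ext

lemma aug_mapDomain (f : G →* H) (x : MonoidAlgebra K G) :
    aug K H (mapDomainAlgHom K K f x) = aug K G x :=
  DFunLike.congr_fun (aug_comp_mapDomain f) x

lemma map_augIdeal_le (f : G →* H) :
    (augIdeal K G).map (mapDomainAlgHom K K f).toLinearMap ≤ augIdeal K H := by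
  rintro _ ⟨x, hx, rfl⟩
  rw [SetLike.mem_coe, mem_augIdeal] at hx
  rw [mem_augIdeal, AlgHom.toLinearMap_apply, aug_mapDomain, hx]

lemma map_augIdeal_pow_le (f : G →* H) (m : ℕ) :
    ((augIdeal K G) ^ m).map (mapDomainAlgHom K K f).toLinearMap ≤ (augIdeal K H) ^ m := by
  rw [Submodule.map_pow]
  exact pow_le_pow_left' (map_augIdeal_le f) m

lemma mapDomain_mem_augIdeal_pow (f : G →* H) (m : ℕ) {x : MonoidAlgebra K G}
    (hx : x ∈ (augIdeal K G) ^ m) : mapDomainAlgHom K K f x ∈ (augIdeal K H) ^ m :=
  map_augIdeal_pow_le f m ⟨x, hx, rfl⟩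

end maps

section kernel
variable {G Q : Type*} [Group G] [Group Q] (φ : G →* Q)

/-- The kernel of `K[G] → K[Q]` as a `K`-submodule. -/
noncomputable def kerIdeal (K : Type*) [CommRing K] {G Q : Type*} [Group G] [Group Q]
    (φ : G →* Q) : Submodule K (MonoidAlgebra K G) :=
  LinearMap.ker (mapDomainAlgHom K K φ).toLinearMap

/-- The span of the elements `(ν - 1) g` with `ν ∈ ker φ`. -/
noncomputable def kerSpan (K : Type*) [CommRing K] {G Q : Type*} [Group G] [Group Q]
    (φ : G →* Q) : Submodule K (MonoidAlgebra K G) :=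
  Submodule.span K {z | ∃ ν : φ.ker, ∃ g : G,
    z = (single (ν : G) 1 - 1) * single g (1 : K)}

lemma kerIdeal_le_kerSpan : kerIdeal K φ ≤ kerSpan K φ := by
  classical
  intro x hx
  -- a set-theoretic section of `φ` on its range
  let s : Q → G := fun q => if h : ∃ g, φ g = q then h.choose else 1
  have hs : ∀ g, φ (s (φ g)) = φ g := by
    intro g
    have h : ∃ g', φ g' = φ g := ⟨g, rfl⟩
    simp only [s, dif_pos h]
    exact h.choose_spec
  have key : ∀ y : MonoidAlgebra K G,
      y - mapDomain s (mapDomain φ y) ∈ kerSpan K φ := by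
    intro y
    induction y using MonoidAlgebra.induction_on with
    | of g =>
      have hν : g * (s (φ g))⁻¹ ∈ φ.ker := by
        rw [MonoidHom.mem_ker, map_mul, map_inv, hs, mul_inv_cancel]
      apply Submodule.subset_span
      refine ⟨⟨_, hν⟩, s (φ g), ?_⟩
      simp [MonoidAlgebra.of_apply, sub_mul, single_mul_single]
    | add x y hx hy =>
      have : x + y - mapDomain s (mapDomain φ (x + y)) =
          (x - mapDomain s (mapDomain φ x)) + (y - mapDomain s (mapDomain φ y)) := by
        simp only [mapDomain_add]; abel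
      rw [this]; exact add_mem hx hy
    | smul r x hx =>
      have : r • x - mapDomain s (mapDomain φ (r • x)) =
          r • (x - mapDomain s (mapDomain φ x)) := by
        simp only [mapDomain_smul, smul_sub]
      rw [this]; exact Submodule.smul_mem _ _ hx
  have hx' : mapDomain φ x = 0 := by
    have := hx
    simpa [kerIdeal] using this
  have := key x
  rwa [hx', mapDomain_zero, sub_zero] at this

lemma coset_injective (g₀ : G) : Function.Injective (fun ν : φ.ker => (ν : G) * g₀) :=
  fun _ _ h => Subtype.ext (mul_right_cancel h)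

/-- The `N`-coordinate of `x : K[G]` along the coset `N g₀`. -/
noncomputable def coord (g₀ : G) : MonoidAlgebra K G →ₗ[K] MonoidAlgebra K φ.ker where
  toFun x := comapDomain (fun ν : φ.ker => (ν : G) * g₀) (coset_injective φ g₀) x
  map_add' x y := by simp
  map_smul' r x := by ext; simp

@[simp] lemma coord_coeff (g₀ : G) (x : MonoidAlgebra K G) (ν : φ.ker) :
    (coord φ g₀ x).coeff ν = x.coeff ((ν : G) * g₀) := by
  simp [coord]

lemma coord_single_mul (g₀ : G) (ν : φ.ker) (x : MonoidAlgebra K G) :
    coord φ g₀ (single (ν : G) 1 * x) = single ν 1 * coord φ g₀ x := by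
  ext μ
  simp [mul_assoc]

/-- Conjugation by `g` on `K[N]`. -/
noncomputable def conjAlg (g : G) : MonoidAlgebra K φ.ker →ₐ[K] MonoidAlgebra K φ.ker :=
  mapDomainAlgHom K K (MulAut.conjNormal g : φ.ker ≃* φ.ker).toMonoidHom

lemma conjAlg_coeff (g : G) (y : MonoidAlgebra K φ.ker) (μ : φ.ker) :
    (conjAlg φ g y).coeff μ = y.coeff ((MulAut.conjNormal g : φ.ker ≃* φ.ker).symm μ) := by
  have : conjAlg φ g y = domCongr K K (MulAut.conjNormal g : φ.ker ≃* φ.ker) y := rfl
  rw [this, coeff_domCongr]

lemma coord_single_mul' (g₀ g : G) (x : MonoidAlgebra K G) :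
    coord φ g₀ (single g 1 * x) = conjAlg φ g (coord φ (g⁻¹ * g₀) x) := by
  ext μ
  rw [conjAlg_coeff, coord_coeff, coord_coeff, coeff_single_mul_apply, one_mul]
  congr 1
  simp [MulAut.conjNormal_symm_apply, mul_assoc]

lemma conjAlg_mem (g : G) (m : ℕ) {y : MonoidAlgebra K φ.ker}
    (hy : y ∈ (augIdeal K φ.ker) ^ m) : conjAlg φ g y ∈ (augIdeal K φ.ker) ^ m :=
  mapDomain_mem_augIdeal_pow _ m hy

lemma mul_mem_augIdeal {H : Type*} [Group H] {a : MonoidAlgebra K H} (ha : a ∈ augIdeal K H)
    (b : MonoidAlgebra K H) : a * b ∈ augIdeal K H := by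
  rw [mem_augIdeal] at ha ⊢
  rw [map_mul, ha, zero_mul]

/-- Main coordinate estimate. -/
lemma coord_mem_of_mem_kerSpan_pow (m : ℕ) :
    ∀ x ∈ (kerSpan K φ) ^ (m + 1), ∀ g₀ : G, coord φ g₀ x ∈ (augIdeal K φ.ker) ^ (m + 1) := by
  induction m with
  | zero =>
    intro x hx g₀
    rw [zero_add, pow_one] at hx ⊢
    induction hx using Submodule.span_induction with
    | mem z hz =>
      obtain ⟨ν, g, rfl⟩ := hz
      have h1 : coord φ g₀ ((single (ν : G) 1 - 1) * single g (1 : K)) =
          (single ν 1 - 1) * coord φ g₀ (single g (1 : K)) := by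
        rw [sub_mul, sub_mul, one_mul, one_mul, map_sub, coord_single_mul]
      rw [h1]
      exact mul_mem_augIdeal (single_sub_one_mem ν) _
    | zero => simp
    | add a b _ _ ha hb => rw [map_add]; exact add_mem ha hb
    | smul r a _ ha => rw [map_smul]; exact Submodule.smul_mem _ _ ha
  | succ m ih =>
    intro x hx
    rw [pow_succ'] at hx
    refine Submodule.mul_induction_on hx ?_ ?_
    · intro z hz y hy g₀
      induction hz using Submodule.span_induction with
      | mem z hz =>
        obtain ⟨ν, g, rfl⟩ := hz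
        have h1 : coord φ g₀ ((single (ν : G) 1 - 1) * single g (1 : K) * y) =
            (single ν 1 - 1) * conjAlg φ g (coord φ (g⁻¹ * g₀) y) := by
          rw [mul_assoc, sub_mul, sub_mul, one_mul, one_mul, map_sub, coord_single_mul,
            coord_single_mul']
        rw [h1, pow_succ']
        exact Submodule.mul_mem_mul (single_sub_one_mem ν) (conjAlg_mem φ g _ (ih y hy _))
      | zero => simp
      | add a b _ _ ha hb => rw [add_mul, map_add]; exact add_mem ha hb
      | smul r a _ ha => rw [smul_mul_assoc, map_smul]; exact Submodule.smul_mem _ _ ha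
    · intro a b ha hb g₀
      rw [map_add]; exact add_mem (ha g₀) (hb g₀)

/-- If the augmentation ideal of `K[ker φ]` is residually nilpotent, so is the kernel of
`K[G] → K[Q]`. -/
lemma eq_zero_of_mem_kerIdeal_pow
    (H : ∀ y : MonoidAlgebra K φ.ker, (∀ m, y ∈ (augIdeal K φ.ker) ^ (m + 1)) → y = 0)
    (x : MonoidAlgebra K G) (hx : ∀ m, x ∈ (kerIdeal K φ) ^ (m + 1)) : x = 0 := by
  ext g
  have h0 : coord φ g x = 0 := H _ fun m =>
    coord_mem_of_mem_kerSpan_pow φ m x (pow_le_pow_left' (kerIdeal_le_kerSpan φ) _ (hx m)) g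
  have := congrArg (fun y => y.coeff 1) h0
  simpa using this

end kernel

section lifting
variable {G Q : Type*} [Group G] [Group Q] (φ : G →* Q)

lemma mem_kerIdeal {x : MonoidAlgebra K G} :
    x ∈ kerIdeal K φ ↔ mapDomainAlgHom K K φ x = 0 := by
  rw [kerIdeal, LinearMap.mem_ker, AlgHom.toLinearMap_apply]

lemma entries_mem_pow {n : ℕ} (E : Matrix (Fin n) (Fin n) (MonoidAlgebra K G))
    (hE : E * E = E) (h0 : E.map (mapDomainAlgHom K K φ) = 0) (m : ℕ) :
    ∀ i j, E i j ∈ (kerIdeal K φ) ^ (m + 1) := by
  have hbase : ∀ i j, E i j ∈ kerIdeal K φ := by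
    intro i j
    rw [mem_kerIdeal]
    have := congrFun (congrFun h0 i) j
    simpa using this
  induction m with
  | zero => intro i j; simpa using hbase i j
  | succ m ih =>
    intro i j
    rw [← hE, Matrix.mul_apply, pow_succ']
    exact Submodule.sum_mem _ fun k _ => Submodule.mul_mem_mul (hbase i k) (ih k j)

/-- Lifting Dedekind-finiteness of `n × n` matrices along `K[G] → K[Q]` when the augmentation
ideal of the kernel is residually nilpotent. -/
theorem matrix_dedekindFinite_of_resNilp
    (H : ∀ y : MonoidAlgebra K φ.ker, (∀ m, y ∈ (augIdeal K φ.ker) ^ (m + 1)) → y = 0)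
    (n : ℕ) [IsDedekindFiniteMonoid (Matrix (Fin n) (Fin n) (MonoidAlgebra K Q))] :
    IsDedekindFiniteMonoid (Matrix (Fin n) (Fin n) (MonoidAlgebra K G)) where
  mul_eq_one_symm {A B} hAB := by
    set f := mapDomainAlgHom K K φ with hf
    have h1 : A.map f * B.map f = 1 := by
      rw [← Matrix.map_mul, hAB, Matrix.map_one _ (map_zero f) (map_one f)]
    have h2 : B.map f * A.map f = 1 := mul_eq_one_symm h1
    set E := 1 - B * A with hEdef
    have hE : E * E = E := by
      have : B * A * (B * A) = B * A := by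
        rw [mul_assoc, ← mul_assoc A B A, hAB, one_mul]
      rw [hEdef, mul_sub, sub_mul, sub_mul, this]
      simp
    have h0 : E.map f = 0 := by
      rw [hEdef, Matrix.map_sub f (map_sub f), Matrix.map_one _ (map_zero f) (map_one f),
        Matrix.map_mul, h2, sub_self]
    have hzero : E = 0 := by
      apply Matrix.ext
      intro i j
      exact eq_zero_of_mem_kerIdeal_pow φ H _ fun m => entries_mem_pow φ E hE h0 m i j
    rw [hEdef, sub_eq_zero] at hzero
    exact hzero.symm

theorem stablyFinite_of_resNilp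
    (H : ∀ y : MonoidAlgebra K φ.ker, (∀ m, y ∈ (augIdeal K φ.ker) ^ (m + 1)) → y = 0)
    [IsStablyFiniteRing (MonoidAlgebra K Q)] : IsStablyFiniteRing (MonoidAlgebra K G) where
  isDedekindFiniteMonoid n := matrix_dedekindFinite_of_resNilp φ H n

theorem dedekindFinite_of_resNilp
    (H : ∀ y : MonoidAlgebra K φ.ker, (∀ m, y ∈ (augIdeal K φ.ker) ^ (m + 1)) → y = 0)
    [IsDedekindFiniteMonoid (MonoidAlgebra K Q)] :
    IsDedekindFiniteMonoid (MonoidAlgebra K G) where
  mul_eq_one_symm {a b} hab := by
    set f := mapDomainAlgHom K K φ with hf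
    have h1 : f a * f b = 1 := by rw [← map_mul, hab, map_one]
    have h2 : f b * f a = 1 := mul_eq_one_symm h1
    set e := 1 - b * a with hedef
    have he : e * e = e := by
      have : b * a * (b * a) = b * a := by
        rw [mul_assoc, ← mul_assoc a b a, hab, one_mul]
      rw [hedef, mul_sub, sub_mul, sub_mul, this]
      simp
    have h0 : e ∈ kerIdeal K φ := by
      rw [mem_kerIdeal, hedef, map_sub, map_one, map_mul, h2, sub_self]
    have hpow : ∀ m, e ∈ (kerIdeal K φ) ^ (m + 1) := by
      intro m
      induction m with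
      | zero => simpa using h0
      | succ m ih => rw [← he, pow_succ']; exact Submodule.mul_mem_mul h0 ih
    have hzero : e = 0 := eq_zero_of_mem_kerIdeal_pow φ H _ hpow
    rw [hedef, sub_eq_zero] at hzero
    exact hzero.symm

end lifting

end Vale.Agent.P194
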