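import Vale.Agent.P194.Basic

/-!
# P194: central kernels

If `φ : G → Q` has central kernel `Z` and `K[Z]` has only the trivial idempotents, then direct and
stable finiteness lift from `K[Q]` to `K[G]`.
-/

namespace Vale.Agent.P194

open MonoidAlgebra

/-! ### Trivial idempotents in commutative group algebras -/

section idem

theorem tf_twoUniqueSums (A : Type*) [AddCommGroup A] [IsAddTorsionFree A] : TwoUniqueSums A :=
  TwoUniqueSums.of_injective_addHom (DivisibleHull.coeAddMonoidHom (M := A)).toAddHom
    DivisibleHull.coe_injective inferInstance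

theorem tf_twoUniqueProds (Z : Type*) [CommGroup Z] [IsMulTorsionFree Z] : TwoUniqueProds Z := by
  have : TwoUniqueSums (Additive Z) := tf_twoUniqueSums (Additive Z)
  exact Multiplicative.instTwoUniqueProdsOfTwoUniqueSums (M := Additive Z)

theorem tf_noZeroDivisors (K : Type*) [Field K] (Z : Type*) [CommGroup Z] [IsMulTorsionFree Z] :
    NoZeroDivisors (MonoidAlgebra K Z) := by
  have := tf_twoUniqueProds Z
  infer_instance

variable (K : Type*) [Field K] (p : ℕ) [ExpChar K p] (Z : Type*) [CommGroup Z]

lemma kerSpan_nilpotent (ht : ∀ z : Z, IsOfFinOrder z → ∃ k : ℕ, z ^ (p ^ k) = 1)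
    (f : MonoidAlgebra K Z)
    (hf : f ∈ kerSpan K (QuotientGroup.mk' (CommGroup.torsion Z))) : IsNilpotent f := by
  have hexp : ExpChar (MonoidAlgebra K Z) p :=
    expChar_of_injective_algebraMap (algebraMap K (MonoidAlgebra K Z)).injective p
  induction hf using Submodule.span_induction with
  | mem z hz =>
    obtain ⟨ν, g, rfl⟩ := hz
    have hν : IsOfFinOrder (ν : Z) := by
      have h0 : (ν : Z) ∈ (QuotientGroup.mk' (CommGroup.torsion Z)).ker := ν.2
      have h1 : (ν : Z) ∈ CommGroup.torsion Z := by
        rwa [MonoidHom.mem_ker, QuotientGroup.mk'_apply, QuotientGroup.eq_one_iff] at h0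
      exact h1
    obtain ⟨k, hk⟩ := ht _ hν
    have h1 : IsNilpotent (single (ν : Z) (1 : K) - 1) := by
      refine ⟨p ^ k, ?_⟩
      rw [sub_pow_expChar_pow, single_pow, hk, one_pow, one_pow, one_def, sub_self]
    exact (Commute.all _ _).isNilpotent_mul_right h1
  | zero => exact IsNilpotent.zero
  | add a b _ _ ha hb => exact (Commute.all _ _).isNilpotent_add ha hb
  | smul r a _ ha => exact IsNilpotent.smul ha r

theorem idem_trivial (ht : ∀ z : Z, IsOfFinOrder z → ∃ k : ℕ, z ^ (p ^ k) = 1)
    (f : MonoidAlgebra K Z) (hf : f * f = f) : f = 0 ∨ f = 1 := by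
  have hdom := tf_noZeroDivisors K (Z ⧸ CommGroup.torsion Z)
  set π := QuotientGroup.mk' (CommGroup.torsion Z) with hπ
  set F := mapDomainAlgHom K K π with hF
  have key : ∀ e : MonoidAlgebra K Z, e * e = e → F e = 0 → e = 0 := by
    intro e he h0
    have h1 : e ∈ kerSpan K π := kerIdeal_le_kerSpan π ((mem_kerIdeal π).2 h0)
    obtain ⟨n, hn⟩ := kerSpan_nilpotent K p Z ht e h1
    have hpow : ∀ m : ℕ, e ^ (m + 1) = e := by
      intro m
      induction m with
      | zero => simp
      | succ m ih => rw [pow_succ, ih, he]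
    cases n with
    | zero =>
      rw [pow_zero] at hn
      rw [← mul_one e, hn, mul_zero]
    | succ n => rw [← hpow n, hn]
  have hFf : F f * F f = F f := by rw [← map_mul, hf]
  have h2 : F f * (F f - 1) = 0 := by rw [mul_sub, hFf, mul_one, sub_self]
  rcases mul_eq_zero.1 h2 with h | h
  · exact Or.inl (key f hf h)
  · right
    have h3 : (1 - f) * (1 - f) = 1 - f := by
      rw [mul_sub, sub_mul, sub_mul, hf]; simp
    have h4 : F (1 - f) = 0 := by
      rw [map_sub, map_one, ← neg_sub, h, neg_zero]
    have := key (1 - f) h3 h4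
    exact (sub_eq_zero.1 this).symm

end idem

/-! ### Coordinates along a central kernel -/

section central
variable {K : Type*} [CommRing K] {G Q : Type*} [Group G] [Group Q] (φ : G →* Q)

/-- A central kernel is a commutative group. -/
@[reducible] def kerCommGroup (hc : φ.ker ≤ Subgroup.center G) : CommGroup φ.ker :=
  { (inferInstance : Group φ.ker) with
    mul_comm := fun a b => Subtype.ext (Subgroup.mem_center_iff.1 (hc b.2) a) }

/-- The inclusion `K[ker φ] → K[G]`. -/
noncomputable def incl : MonoidAlgebra K φ.ker →ₐ[K] MonoidAlgebra K G :=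
  mapDomainAlgHom K K φ.ker.subtype

lemma incl_single (ν : φ.ker) (r : K) : incl φ (single ν r) = single (ν : G) r := by
  simp [incl]

lemma coord_incl_mul (g : G) (u : MonoidAlgebra K φ.ker) (x : MonoidAlgebra K G) :
    coord φ g (incl φ u * x) = u * coord φ g x := by
  induction u using MonoidAlgebra.induction_linear with
  | zero => simp
  | add a b ha hb => rw [map_add, add_mul, map_add, ha, hb, add_mul]
  | single ν r =>
    have h1 : (single (ν : G) r : MonoidAlgebra K G) = r • single (ν : G) 1 := by
      rw [smul_single, smul_eq_mul, mul_one]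
    have h2 : (single ν r : MonoidAlgebra K φ.ker) = r • single ν 1 := by
      rw [smul_single, smul_eq_mul, mul_one]
    rw [incl_single, h1, smul_mul_assoc, map_smul, coord_single_mul, h2, smul_mul_assoc]

lemma incl_coeff_mem (u : MonoidAlgebra K φ.ker) (ν : φ.ker) :
    (incl φ u).coeff (ν : G) = u.coeff ν := by
  have : (incl φ u).coeff = u.coeff.mapDomain φ.ker.subtype := rfl
  rw [this]
  exact Finsupp.mapDomain_apply φ.ker.subtype_injective _ _

lemma incl_coeff_not_mem (u : MonoidAlgebra K φ.ker) {k : G} (hk : k ∉ φ.ker) :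
    (incl φ u).coeff k = 0 := by
  have : (incl φ u).coeff = u.coeff.mapDomain φ.ker.subtype := rfl
  rw [this]
  apply Finsupp.mapDomain_of_notMem_range
  rintro ⟨ν, rfl⟩
  exact hk ν.2

lemma piece_coeff (t h : G) (x : MonoidAlgebra K G) [Decidable (φ h = φ t)] :
    (incl φ (coord φ t x) * single t 1).coeff h = if φ h = φ t then x.coeff h else 0 := by
  rw [coeff_mul_single_apply, mul_one]
  split_ifs with hk
  · have hmem : h * t⁻¹ ∈ φ.ker := by
      rw [MonoidHom.mem_ker, map_mul, map_inv, hk, mul_inv_cancel]
    have := incl_coeff_mem φ (coord φ t x) ⟨_, hmem⟩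
    rw [this, coord_coeff]
    simp
  · apply incl_coeff_not_mem
    intro hmem
    apply hk
    rw [MonoidHom.mem_ker, map_mul, map_inv, mul_inv_eq_one] at hmem
    exact hmem

/-- Decomposition of an element of `K[G]` into its coset pieces. -/
lemma exists_decomp (x : MonoidAlgebra K G) :
    ∃ T : Finset G, x = ∑ t ∈ T, incl φ (coord φ t x) * single t 1 := by
  classical
  let s : Q → G := fun q => if h : ∃ g, φ g = q then h.choose else 1
  have hs : ∀ g, φ (s (φ g)) = φ g := by
    intro g
    have h : ∃ g', φ g' = φ g := ⟨g, rfl⟩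
    simp only [s, dif_pos h]
    exact h.choose_spec
  set A : Finset Q := x.coeff.support.image φ with hA
  have hinj : Set.InjOn s A := by
    intro q hq q' hq' hqq
    obtain ⟨g, _, rfl⟩ := Finset.mem_image.1 hq
    obtain ⟨g', _, rfl⟩ := Finset.mem_image.1 hq'
    rw [← hs g, ← hs g', hqq]
  refine ⟨A.image s, ?_⟩
  rw [Finset.sum_image hinj]
  ext h
  rw [coeff_sum, Finsupp.finsetSum_apply]
  simp only [piece_coeff]
  by_cases hh : x.coeff h = 0
  · rw [hh]; simp
  · have hmem : φ h ∈ A := Finset.mem_image.2 ⟨h, Finsupp.mem_support_iff.2 hh, rfl⟩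
    rw [Finset.sum_eq_single (φ h)]
    · rw [hs, if_pos rfl]
    · intro q hq hne
      obtain ⟨g, _, rfl⟩ := Finset.mem_image.1 hq
      rw [hs, if_neg (fun h' => hne h'.symm)]
    · intro hcon; exact absurd hmem hcon

variable (hc : φ.ker ≤ Subgroup.center G)
include hc

lemma conjAlg_eq_self (g : G) (y : MonoidAlgebra K φ.ker) : conjAlg φ g y = y := by
  ext μ
  rw [conjAlg_coeff]
  congr 1
  apply Subtype.ext
  rw [MulAut.conjNormal_symm_apply]
  have := Subgroup.mem_center_iff.1 (hc μ.2) g
  rw [mul_assoc, ← this, inv_mul_cancel_left]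

lemma coord_single_mul_central (g₀ g : G) (x : MonoidAlgebra K G) :
    coord φ g₀ (single g 1 * x) = coord φ (g⁻¹ * g₀) x := by
  rw [coord_single_mul', conjAlg_eq_self φ hc]

lemma coord_shift (g : G) (μ : φ.ker) (x : MonoidAlgebra K G) :
    coord φ g x = single μ 1 * coord φ ((μ : G) * g) x := by
  rw [← coord_single_mul, coord_single_mul_central φ hc, inv_mul_cancel_left]

end central

/-! ### The main argument -/

section main
variable {K : Type*} [Field K] {G Q : Type*} [Group G] [Group Q] (φ : G →* Q)

/-- A finite family in the kernel of `K[G] → K[Q]`, each member of which is a combination of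
products of two members, vanishes: the ideal of `K[ker φ]` generated by all coordinates is finitely
generated and idempotent. -/
theorem family_eq_zero (hc : φ.ker ≤ Subgroup.center G)
    (hidem : ∀ f : MonoidAlgebra K φ.ker, f * f = f → f = 0 ∨ f = 1)
    {ι : Type*} [Finite ι] (x : ι → MonoidAlgebra K G)
    (hker : ∀ i, x i ∈ kerIdeal K φ)
    (hmul : ∀ i, x i ∈ Submodule.span K {z | ∃ j k, z = x j * x k}) : ∀ i, x i = 0 := by
  classical
  let _ := kerCommGroup φ hc
  cases nonempty_fintype ι
  let S : Finset (MonoidAlgebra K φ.ker) :=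
    Finset.univ.biUnion fun i => (x i).coeff.support.image fun h => coord φ h (x i)
  let J : Ideal (MonoidAlgebra K φ.ker) := Ideal.span (S : Set (MonoidAlgebra K φ.ker))
  have hJ : ∀ i g, coord φ g (x i) ∈ J := by
    intro i g
    by_cases h0 : coord φ g (x i) = 0
    · rw [h0]; exact zero_mem _
    · obtain ⟨μ, hμ⟩ : ∃ μ, (coord φ g (x i)).coeff μ ≠ 0 := by
        by_contra hcon
        push Not at hcon
        exact h0 (by ext μ; simpa using hcon μ)
      rw [coord_coeff] at hμ
      rw [coord_shift φ hc g μ]
      apply Ideal.mul_mem_left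
      apply Ideal.subset_span
      simp only [S, Finset.coe_biUnion, Set.mem_iUnion, Finset.coe_image, Set.mem_image]
      exact ⟨i, by simp, (μ : G) * g, by simpa using hμ, rfl⟩
  have hmulJ : ∀ a b : MonoidAlgebra K G, (∀ g, coord φ g a ∈ J) → (∀ g, coord φ g b ∈ J) →
      ∀ g, coord φ g (a * b) ∈ J * J := by
    intro a b ha hb g
    obtain ⟨T, hT⟩ := exists_decomp φ a
    have h1 : coord φ g (a * b) =
        ∑ t ∈ T, coord φ t a * coord φ (t⁻¹ * g) b := by
      conv_lhs => rw [hT]
      rw [Finset.sum_mul, map_sum]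
      refine Finset.sum_congr rfl fun t _ => ?_
      rw [mul_assoc, coord_incl_mul, coord_single_mul_central φ hc]
    rw [h1]
    exact Ideal.sum_mem _ fun t _ => Ideal.mul_mem_mul (ha t) (hb _)
  have hspan : ∀ z ∈ Submodule.span K {z | ∃ j k, z = x j * x k}, ∀ g, coord φ g z ∈ J * J := by
    intro z hz
    induction hz using Submodule.span_induction with
    | mem z hz =>
      obtain ⟨j, k, rfl⟩ := hz
      exact hmulJ _ _ (hJ j) (hJ k)
    | zero => intro g; rw [map_zero]; exact zero_mem _
    | add a b _ _ ha hb => intro g; rw [map_add]; exact add_mem (ha g) (hb g)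
    | smul r a _ ha =>
      intro g
      rw [map_smul, Algebra.smul_def]
      exact Ideal.mul_mem_left _ _ (ha g)
  have hJJ : J ≤ J * J := by
    apply Ideal.span_le.2
    intro s hs
    simp only [S, Finset.coe_biUnion, Set.mem_iUnion, Finset.coe_image, Set.mem_image] at hs
    obtain ⟨i, _, h, _, rfl⟩ := hs
    exact hspan _ (hmul i) h
  have hidemJ : IsIdempotentElem J := le_antisymm Ideal.mul_le_right hJJ
  obtain ⟨f, hf, hJf⟩ := (Ideal.isIdempotentElem_iff_of_fg J ⟨S, rfl⟩).1 hidemJ
  have haug : ∀ y ∈ J, aug K φ.ker y = 0 := by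
    intro y hy
    have hle : J ≤ RingHom.ker (aug K φ.ker).toRingHom := by
      apply Ideal.span_le.2
      intro s hs
      simp only [S, Finset.coe_biUnion, Set.mem_iUnion, Finset.coe_image, Set.mem_image] at hs
      obtain ⟨i, _, h, _, rfl⟩ := hs
      have h1 := coord_mem_of_mem_kerSpan_pow φ 0 (x i)
        (by simpa using kerIdeal_le_kerSpan φ (hker i)) h
      rw [zero_add, pow_one, mem_augIdeal] at h1
      exact h1
    exact hle hy
  rcases hidem f hf with rfl | rfl
  · intro i
    ext g
    have h1 : coord φ g (x i) ∈ J := hJ i g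
    rw [hJf] at h1
    have h2 : coord φ g (x i) = 0 := by simpa using h1
    have := congrArg (fun y => y.coeff 1) h2
    simpa using this
  · exfalso
    have h1 : (1 : MonoidAlgebra K φ.ker) ∈ J := by
      rw [hJf]; exact Ideal.mem_span_singleton_self _
    have := haug 1 h1
    rw [map_one] at this
    exact one_ne_zero this

theorem matrix_dedekindFinite_of_central (hc : φ.ker ≤ Subgroup.center G)
    (hidem : ∀ f : MonoidAlgebra K φ.ker, f * f = f → f = 0 ∨ f = 1)
    (n : ℕ) [IsDedekindFiniteMonoid (Matrix (Fin n) (Fin n) (MonoidAlgebra K Q))] :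
    IsDedekindFiniteMonoid (Matrix (Fin n) (Fin n) (MonoidAlgebra K G)) where
  mul_eq_one_symm {A B} hAB := by
    set f := mapDomainAlgHom K K φ with hf
    have h1 : A.map f * B.map f = 1 := by
      rw [← Matrix.map_mul, hAB, Matrix.map_one _ (map_zero f) (map_one f)]
    have h2 : B.map f * A.map f = 1 := mul_eq_one_symm h1
    set E := 1 - B * A with hEdef
    have hE : E * E = E := by
      have : B * A * (B * A) = B * A := by
        rw [mul_assoc, ← mul_assoc A B A, hAB, one_mul]
      rw [hEdef, mul_sub, sub_mul, sub_mul, this]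
      simp
    have h0 : E.map f = 0 := by
      rw [hEdef, Matrix.map_sub f (map_sub f), Matrix.map_one _ (map_zero f) (map_one f),
        Matrix.map_mul, h2, sub_self]
    have hzero : E = 0 := by
      have key := family_eq_zero φ hc hidem (fun q : Fin n × Fin n => E q.1 q.2)
        (by
          intro q
          rw [mem_kerIdeal]
          exact congrFun (congrFun h0 q.1) q.2)
        (by
          intro q
          have h3 : E q.1 q.2 = ∑ k, E q.1 k * E k q.2 := by
            conv_lhs => rw [← hE]
            rw [Matrix.mul_apply]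
          show E q.1 q.2 ∈ _
          rw [h3]
          exact Submodule.sum_mem _ fun k _ =>
            Submodule.subset_span ⟨(q.1, k), (k, q.2), rfl⟩)
      apply Matrix.ext
      intro i j
      exact key (i, j)
    rw [hEdef, sub_eq_zero] at hzero
    exact hzero.symm

theorem stablyFinite_of_central (hc : φ.ker ≤ Subgroup.center G)
    (hidem : ∀ f : MonoidAlgebra K φ.ker, f * f = f → f = 0 ∨ f = 1)
    [IsStablyFiniteRing (MonoidAlgebra K Q)] : IsStablyFiniteRing (MonoidAlgebra K G) where
  isDedekindFiniteMonoid n := matrix_dedekindFinite_of_central φ hc hidem n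

theorem dedekindFinite_of_central (hc : φ.ker ≤ Subgroup.center G)
    (hidem : ∀ f : MonoidAlgebra K φ.ker, f * f = f → f = 0 ∨ f = 1)
    [IsDedekindFiniteMonoid (MonoidAlgebra K Q)] :
    IsDedekindFiniteMonoid (MonoidAlgebra K G) where
  mul_eq_one_symm {a b} hab := by
    set f := mapDomainAlgHom K K φ with hf
    have h1 : f a * f b = 1 := by rw [← map_mul, hab, map_one]
    have h2 : f b * f a = 1 := mul_eq_one_symm h1
    set e := 1 - b * a with hedef
    have he : e * e = e := by
      have : b * a * (b * a) = b * a := by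
        rw [mul_assoc, ← mul_assoc a b a, hab, one_mul]
      rw [hedef, mul_sub, sub_mul, sub_mul, this]
      simp
    have h0 : e ∈ kerIdeal K φ := by
      rw [mem_kerIdeal, hedef, map_sub, map_one, map_mul, h2, sub_self]
    have hzero : e = 0 :=
      family_eq_zero φ hc hidem (fun _ : Unit => e) (fun _ => h0)
        (fun _ => Submodule.subset_span ⟨(), (), he.symm⟩) ()
    rw [hedef, sub_eq_zero] at hzero
    exact hzero.symm

/-- The idempotent hypothesis for central kernels whose torsion is `p`-torsion. -/
theorem ker_idem_trivial (p : ℕ) [ExpChar K p] (hc : φ.ker ≤ Subgroup.center G)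
    (ht : ∀ z ∈ φ.ker, IsOfFinOrder z → ∃ k : ℕ, z ^ (p ^ k) = 1)
    (f : MonoidAlgebra K φ.ker) (hf : f * f = f) : f = 0 ∨ f = 1 := by
  refine @idem_trivial K _ p _ φ.ker (kerCommGroup φ hc) ?_ f hf
  intro z hz
  obtain ⟨k, hk⟩ := ht z z.2 ((Submonoid.isOfFinOrder_coe (H := φ.ker.toSubmonoid)).2 hz)
  exact ⟨k, Subtype.ext (by simpa using hk)⟩

end main

end Vale.Agent.P194
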