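import Vale.Agent.P194.Basic

/-!
# P194: Fox calculus on the group algebra of a free group
-/

namespace Vale.Agent.P194

open MonoidAlgebra

variable (K : Type*) [CommRing K] (X : Type*)

/-- Pairs `(g, m)` with `g` in the free group and `m` in the free left `K[F]`-module on `X`:
the semidirect product used to define the universal Fox derivative. -/
structure FoxPt where
  /-- group part -/
  g : FreeGroup X
  /-- module part -/
  m : X →₀ MonoidAlgebra K (FreeGroup X)

namespace FoxPt

variable {K X}

@[ext] lemma ext' {a b : FoxPt K X} (h1 : a.g = b.g) (h2 : a.m = b.m) : a = b := by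
  cases a; cases b; simp_all

noncomputable instance : Mul (FoxPt K X) :=
  ⟨fun a b => ⟨a.g * b.g, a.m + (single a.g (1 : K)) • b.m⟩⟩

noncomputable instance : One (FoxPt K X) := ⟨⟨1, 0⟩⟩

noncomputable instance : Inv (FoxPt K X) :=
  ⟨fun a => ⟨a.g⁻¹, -((single a.g⁻¹ (1 : K)) • a.m)⟩⟩

@[simp] lemma mul_g (a b : FoxPt K X) : (a * b).g = a.g * b.g := rfl
@[simp] lemma mul_m (a b : FoxPt K X) : (a * b).m = a.m + (single a.g (1 : K)) • b.m := rfl
@[simp] lemma one_g : (1 : FoxPt K X).g = 1 := rfl
@[simp] lemma one_m : (1 : FoxPt K X).m = 0 := rfl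
@[simp] lemma inv_g (a : FoxPt K X) : (a⁻¹).g = a.g⁻¹ := rfl
@[simp] lemma inv_m (a : FoxPt K X) : (a⁻¹).m = -((single a.g⁻¹ (1 : K)) • a.m) := rfl

noncomputable instance : Group (FoxPt K X) :=
  Group.ofLeftAxioms
    (by
      intro a b c
      ext1
      · simp [mul_assoc]
      · simp only [mul_m, mul_g, smul_add, add_assoc, ← mul_smul, single_mul_single, mul_one])
    (by
      intro a
      ext1
      · simp
      · simp only [mul_m, one_m, one_g, zero_add, ← one_def, one_smul])
    (by
      intro a
      ext1
      · simp
      · simp)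

end FoxPt

variable {K X}

/-- The homomorphism `F → FoxPt`. -/
noncomputable def foxHom : FreeGroup X →* FoxPt K X :=
  FreeGroup.lift fun x => ⟨FreeGroup.of x, Finsupp.single x 1⟩

/-- projection to the group part -/
noncomputable def FoxPt.gHom : FoxPt K X →* FreeGroup X where
  toFun a := a.g
  map_one' := rfl
  map_mul' _ _ := rfl

lemma foxHom_g (w : FreeGroup X) : (foxHom (K := K) w).g = w := by
  have : (FoxPt.gHom (K := K) (X := X)).comp foxHom = MonoidHom.id _ := by
    ext x
    simp [foxHom, FoxPt.gHom]
  exact DFunLike.congr_fun this w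

/-- The universal Fox derivative on group elements. -/
noncomputable def fox (w : FreeGroup X) : X →₀ MonoidAlgebra K (FreeGroup X) :=
  (foxHom (K := K) w).m

lemma fox_one : fox (K := K) (1 : FreeGroup X) = 0 := by simp [fox]

lemma fox_mul (a b : FreeGroup X) :
    fox (K := K) (a * b) = fox a + (single a (1 : K)) • fox b := by
  simp [fox, foxHom_g]

lemma fox_of (x : X) : fox (K := K) (FreeGroup.of x) = Finsupp.single x 1 := by
  simp [fox, foxHom]

lemma fox_inv (a : FreeGroup X) :
    fox (K := K) a⁻¹ = -((single a⁻¹ (1 : K)) • fox a) := by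
  simp [fox, foxHom_g]

/-- The Fox derivative extended `K`-linearly to the group algebra. -/
noncomputable def foxLin :
    MonoidAlgebra K (FreeGroup X) →ₗ[K] (X →₀ MonoidAlgebra K (FreeGroup X)) :=
  (Finsupp.linearCombination K (fox (K := K) (X := X))) ∘ₗ
    (MonoidAlgebra.coeffLinearEquiv K).toLinearMap

@[simp] lemma foxLin_single (w : FreeGroup X) (r : K) :
    foxLin (single w r) = r • fox (K := K) w := by
  simp [foxLin]

lemma foxLin_mul (u v : MonoidAlgebra K (FreeGroup X)) :
    foxLin (u * v) = aug K _ v • foxLin u + u • foxLin v := by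
  induction u using MonoidAlgebra.induction_linear with
  | zero => simp
  | add a b ha hb => rw [add_mul, map_add, ha, hb, map_add, smul_add, add_smul]; abel
  | single a r =>
    induction v using MonoidAlgebra.induction_linear with
    | zero => simp
    | add c d hc hd => rw [mul_add, map_add, hc, hd, map_add, map_add, add_smul, smul_add]; abel
    | single b s =>
      rw [single_mul_single, foxLin_single, foxLin_single, foxLin_single, aug_single, fox_mul,
        smul_add, smul_smul, mul_comm r s]
      congr 1
      have h1 : (single a r : MonoidAlgebra K (FreeGroup X)) = r • single a (1 : K) := by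
        rw [smul_single, smul_eq_mul, mul_one]
      rw [h1, smul_assoc, smul_comm (single a (1 : K)) s, smul_smul, mul_comm s r]

/-- The evaluation `m ↦ ∑ m x * (x - 1)`. -/
noncomputable def foxEval :
    (X →₀ MonoidAlgebra K (FreeGroup X)) →ₗ[MonoidAlgebra K (FreeGroup X)]
      MonoidAlgebra K (FreeGroup X) :=
  Finsupp.linearCombination _ fun x => single (FreeGroup.of x) (1 : K) - 1

lemma foxEval_fox (w : FreeGroup X) : foxEval (fox (K := K) w) = single w 1 - 1 := by
  induction w using FreeGroup.induction_on with
  | C1 => simp [fox_one, one_def]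
  | of x => simp [fox_of, foxEval]
  | inv_of x hx =>
    rw [fox_inv, map_neg, map_smul, hx, smul_eq_mul, mul_sub, single_mul_single]
    simp [one_def]
  | mul a b ha hb =>
    rw [fox_mul, map_add, map_smul, ha, hb, smul_eq_mul, mul_sub, single_mul_single]
    simp

end Vale.Agent.P194
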