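import Vale.Agent.P194.Fox

/-!
# P194: support control for Fox derivatives and residual nilpotence for free groups
-/

namespace Vale.Agent.P194

open MonoidAlgebra

variable {K : Type*} [CommRing K] {X : Type*}

lemma foxEval_foxLin (u : MonoidAlgebra K (FreeGroup X)) :
    foxEval (foxLin u) = u - aug K _ u • 1 := by
  induction u using MonoidAlgebra.induction_linear with
  | zero => simp
  | add a b ha hb => rw [map_add, map_add, ha, hb, map_add, add_smul]; abel
  | single a r =>
    rw [foxLin_single, LinearMap.map_smul_of_tower, foxEval_fox, aug_single, smul_sub,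
      smul_single, smul_eq_mul, mul_one]

lemma eq_zero_of_foxLin_eq_zero {u : MonoidAlgebra K (FreeGroup X)} (hu : u ∈ augIdeal K _)
    (h : foxLin u = 0) : u = 0 := by
  have := foxEval_foxLin u
  rw [h, map_zero, (mem_augIdeal).1 hu, zero_smul, sub_zero] at this
  exact this.symm

lemma mul_mem_augIdeal_pow {H : Type*} [Group H] (m : ℕ) {a : MonoidAlgebra K H}
    (ha : a ∈ (augIdeal K H) ^ (m + 1)) (s : MonoidAlgebra K H) :
    a * s ∈ (augIdeal K H) ^ (m + 1) := by
  rw [pow_succ] at ha ⊢
  refine Submodule.mul_induction_on ha ?_ ?_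
  · intro x hx y hy
    rw [mul_assoc]
    exact Submodule.mul_mem_mul hx (mul_mem_augIdeal hy s)
  · intro x y hx hy
    rw [add_mul]; exact add_mem hx hy

lemma foxLin_mem (m : ℕ) {u : MonoidAlgebra K (FreeGroup X)}
    (hu : u ∈ (augIdeal K (FreeGroup X)) ^ (m + 1 + 1)) (x : X) :
    foxLin u x ∈ (augIdeal K (FreeGroup X)) ^ (m + 1) := by
  rw [pow_succ] at hu
  refine Submodule.mul_induction_on hu ?_ ?_
  · intro a ha b hb
    rw [foxLin_mul, (mem_augIdeal).1 hb, zero_smul, zero_add, Finsupp.smul_apply, smul_eq_mul]
    exact mul_mem_augIdeal_pow m ha _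
  · intro a b ha hb
    rw [map_add, Finsupp.add_apply]; exact add_mem ha hb

/-- A linear functional that does not vanish on `foxLin u` does not vanish on some `fox w`. -/
lemma exists_of_foxLin_ne_zero (l : (X →₀ MonoidAlgebra K (FreeGroup X)) →ₗ[K] K)
    (u : MonoidAlgebra K (FreeGroup X)) (h : l (foxLin u) ≠ 0) :
    ∃ w, u.coeff w ≠ 0 ∧ l (fox w) ≠ 0 := by
  by_contra hcon
  push Not at hcon
  apply h
  have h1 : foxLin u = u.coeff.sum fun w r => r • fox (K := K) w := by
    simp [foxLin, Finsupp.linearCombination_apply]
  rw [h1, map_finsuppSum]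
  apply Finset.sum_eq_zero
  intro w hw
  show l (u.coeff w • fox w) = 0
  rw [map_smul, hcon w (Finsupp.mem_support_iff.1 hw), smul_zero]

section support
variable [DecidableEq X]

/-- The reduced word of `w` ends with a letter of sign `b`. -/
def EndsWith (b : Bool) (w : FreeGroup X) : Prop := ∃ L y, w.toWord = L ++ [(y, b)]

lemma not_endsWith_both {w : FreeGroup X} (h1 : EndsWith true w) (h2 : EndsWith false w) :
    False := by
  obtain ⟨L, y, h⟩ := h1
  obtain ⟨L', y', h'⟩ := h2
  rw [h] at h'
  have := congrArg List.getLast? h'
  simp at this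

lemma toWord_mk_of_reduced {L : List (X × Bool)} (h : FreeGroup.IsReduced L) :
    (FreeGroup.mk L).toWord = L := by
  rw [FreeGroup.toWord_mk, h.reduce_eq]

lemma norm_mk_of_reduced {L : List (X × Bool)} (h : FreeGroup.IsReduced L) :
    (FreeGroup.mk L).norm = L.length := by
  rw [FreeGroup.norm, toWord_mk_of_reduced h]

lemma fox_mul_of (w : FreeGroup X) (y x : X) :
    fox (K := K) (w * FreeGroup.of y) x = fox w x + if y = x then single w 1 else 0 := by
  rw [fox_mul, fox_of, Finsupp.add_apply, Finsupp.smul_apply, Finsupp.single_apply]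
  split_ifs <;> simp

lemma fox_mul_of_inv (w : FreeGroup X) (y x : X) :
    fox (K := K) (w * (FreeGroup.of y)⁻¹) x =
      fox w x - if y = x then single (w * (FreeGroup.of y)⁻¹) 1 else 0 := by
  rw [fox_mul, fox_inv, fox_of, Finsupp.add_apply, Finsupp.smul_apply, Finsupp.neg_apply,
    Finsupp.smul_apply, Finsupp.single_apply]
  split_ifs <;> simp [single_mul_single, sub_eq_add_neg]

lemma fox_support_A (L : List (X × Bool)) (hL : FreeGroup.IsReduced L) (x : X)
    (v : FreeGroup X) (hv : (fox (K := K) (FreeGroup.mk L) x).coeff v ≠ 0) :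
    v.norm < L.length ∨ (v = FreeGroup.mk L ∧ EndsWith false v) := by
  induction L using List.reverseRecOn generalizing v with
  | nil =>
    exfalso; apply hv
    have : (FreeGroup.mk ([] : List (X × Bool))) = 1 := rfl
    rw [this, fox_one]; simp
  | append_singleton L a ih =>
    have hL' : FreeGroup.IsReduced L := List.IsChain.left_of_append hL
    have hnorm := norm_mk_of_reduced hL'
    have hle : ∀ v : FreeGroup X, (fox (K := K) (FreeGroup.mk L) x).coeff v ≠ 0 →
        v.norm < (L ++ [a]).length := by
      intro v hv
      rcases ih hL' v hv with h | ⟨rfl, _⟩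
      · simp; omega
      · simp [hnorm]
    obtain ⟨y, b⟩ := a
    have hmk : FreeGroup.mk (L ++ [(y, b)]) = FreeGroup.mk L * FreeGroup.mk [(y, b)] := by
      rw [FreeGroup.mul_mk]
    cases b with
    | true =>
      have h1 : FreeGroup.mk [(y, true)] = FreeGroup.of y := rfl
      rw [hmk, h1, fox_mul_of, coeff_add, Finsupp.add_apply] at hv
      by_cases h0 : (fox (K := K) (FreeGroup.mk L) x).coeff v = 0
      · rw [h0, zero_add] at hv
        left
        split_ifs at hv with hyx
        · have : v = FreeGroup.mk L := by
            by_contra hne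
            apply hv
            rw [coeff_single, Finsupp.single_apply, if_neg (Ne.symm hne)]
          rw [this, hnorm]; simp
        · simp at hv
      · exact Or.inl (hle v h0)
    | false =>
      have h1 : FreeGroup.mk [(y, false)] = (FreeGroup.of y)⁻¹ := rfl
      rw [hmk, h1, fox_mul_of_inv, coeff_sub, Finsupp.sub_apply] at hv
      by_cases h0 : (fox (K := K) (FreeGroup.mk L) x).coeff v = 0
      · rw [h0, zero_sub, neg_ne_zero] at hv
        right
        split_ifs at hv with hyx
        · have hveq : v = FreeGroup.mk L * (FreeGroup.of y)⁻¹ := by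
            by_contra hne
            apply hv
            rw [coeff_single, Finsupp.single_apply, if_neg (Ne.symm hne)]
          refine ⟨by rw [hveq, hmk, h1], L, y, ?_⟩
          rw [hveq, ← h1, ← hmk, toWord_mk_of_reduced hL]
        · simp at hv
      · exact Or.inl (hle v h0)

lemma fox_support_B (L : List (X × Bool)) (hL : FreeGroup.IsReduced L) (x : X)
    (v : FreeGroup X)
    (hv : (fox (K := K) (FreeGroup.mk L) x * single (FreeGroup.of x) 1).coeff v ≠ 0) :
    v.norm < L.length ∨ (v = FreeGroup.mk L ∧ EndsWith true v) := by
  induction L using List.reverseRecOn generalizing v with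
  | nil =>
    exfalso; apply hv
    have : (FreeGroup.mk ([] : List (X × Bool))) = 1 := rfl
    rw [this, fox_one]; simp
  | append_singleton L a ih =>
    have hL' : FreeGroup.IsReduced L := List.IsChain.left_of_append hL
    have hnorm := norm_mk_of_reduced hL'
    have hle : ∀ v : FreeGroup X,
        (fox (K := K) (FreeGroup.mk L) x * single (FreeGroup.of x) 1).coeff v ≠ 0 →
        v.norm < (L ++ [a]).length := by
      intro v hv
      rcases ih hL' v hv with h | ⟨rfl, _⟩
      · simp; omega
      · simp [hnorm]
    obtain ⟨y, b⟩ := a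
    have hmk : FreeGroup.mk (L ++ [(y, b)]) = FreeGroup.mk L * FreeGroup.mk [(y, b)] := by
      rw [FreeGroup.mul_mk]
    cases b with
    | true =>
      have h1 : FreeGroup.mk [(y, true)] = FreeGroup.of y := rfl
      rw [hmk, h1, fox_mul_of, add_mul, coeff_add, Finsupp.add_apply] at hv
      by_cases h0 : (fox (K := K) (FreeGroup.mk L) x * single (FreeGroup.of x) 1).coeff v = 0
      · rw [h0, zero_add] at hv
        right
        split_ifs at hv with hyx
        · subst hyx
          rw [single_mul_single, mul_one] at hv
          have hveq : v = FreeGroup.mk L * FreeGroup.of y := by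
            by_contra hne
            apply hv
            rw [coeff_single, Finsupp.single_apply, if_neg (Ne.symm hne)]
          refine ⟨by rw [hveq, hmk, h1], L, y, ?_⟩
          rw [hveq, ← h1, ← hmk, toWord_mk_of_reduced hL]
        · simp at hv
      · exact Or.inl (hle v h0)
    | false =>
      have h1 : FreeGroup.mk [(y, false)] = (FreeGroup.of y)⁻¹ := rfl
      rw [hmk, h1, fox_mul_of_inv, sub_mul, coeff_sub, Finsupp.sub_apply] at hv
      by_cases h0 : (fox (K := K) (FreeGroup.mk L) x * single (FreeGroup.of x) 1).coeff v = 0
      · rw [h0, zero_sub, neg_ne_zero] at hv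
        left
        split_ifs at hv with hyx
        · subst hyx
          rw [single_mul_single, mul_one, inv_mul_cancel_right] at hv
          have : v = FreeGroup.mk L := by
            by_contra hne
            apply hv
            rw [coeff_single, Finsupp.single_apply, if_neg (Ne.symm hne)]
          rw [this, hnorm]; simp
        · simp at hv
      · exact Or.inl (hle v h0)

end support

end Vale.Agent.P194
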