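import Vale.Agent.P194.FoxSupport

/-!
# P194: the augmentation ideal of the group algebra of a free group is residually nilpotent
-/

namespace Vale.Agent.P194

open MonoidAlgebra

variable {K : Type*} [CommRing K] {X : Type*}

/-- the functional `m ↦ (m x).coeff v` -/
noncomputable def coeffFun (x : X) (v : FreeGroup X) :
    (X →₀ MonoidAlgebra K (FreeGroup X)) →ₗ[K] K :=
  ((Finsupp.lapply v : (FreeGroup X →₀ K) →ₗ[K] K) ∘ₗ
    (MonoidAlgebra.coeffLinearEquiv K).toLinearMap) ∘ₗ
    (Finsupp.lapply x : (X →₀ MonoidAlgebra K (FreeGroup X)) →ₗ[K] _)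

@[simp] lemma coeffFun_apply (x : X) (v : FreeGroup X)
    (m : X →₀ MonoidAlgebra K (FreeGroup X)) : coeffFun x v m = (m x).coeff v := rfl

/-- the functional `m ↦ (m x * x).coeff v` -/
noncomputable def coeffFun' (x : X) (v : FreeGroup X) :
    (X →₀ MonoidAlgebra K (FreeGroup X)) →ₗ[K] K :=
  (((Finsupp.lapply v : (FreeGroup X →₀ K) →ₗ[K] K) ∘ₗ
    (MonoidAlgebra.coeffLinearEquiv K).toLinearMap) ∘ₗ
    (LinearMap.mulRight K (single (FreeGroup.of x) (1 : K)))) ∘ₗ
    (Finsupp.lapply x : (X →₀ MonoidAlgebra K (FreeGroup X)) →ₗ[K] _)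

@[simp] lemma coeffFun'_apply (x : X) (v : FreeGroup X)
    (m : X →₀ MonoidAlgebra K (FreeGroup X)) :
    coeffFun' x v m = (m x * single (FreeGroup.of x) 1).coeff v := rfl

theorem free_resNilp_aux [DecidableEq X] (n : ℕ) :
    ∀ u : MonoidAlgebra K (FreeGroup X),
      (∀ m, u ∈ (augIdeal K (FreeGroup X)) ^ (m + 1)) →
      (∀ w, u.coeff w ≠ 0 → w.norm ≤ n) → u = 0 := by
  induction n with
  | zero =>
    intro u hu hsupp
    have h1 : u = single 1 (u.coeff 1) := by
      ext w
      by_cases hw : w = 1
      · subst hw; simp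
      · have : u.coeff w = 0 := by
          by_contra hne
          have := hsupp w hne
          exact hw (FreeGroup.norm_eq_zero.1 (Nat.le_zero.1 this))
        rw [this, coeff_single, Finsupp.single_apply, if_neg (Ne.symm hw)]
    have h2 : aug K _ u = 0 := by
      have := hu 0
      rw [zero_add, pow_one] at this
      exact (mem_augIdeal).1 this
    rw [h1, aug_single] at h2
    rw [h1, h2, single_zero]
  | succ n ih =>
    intro u hu hsupp
    by_contra hne
    have huΔ : u ∈ augIdeal K (FreeGroup X) := by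
      have := hu 0
      rwa [zero_add, pow_one] at this
    have h1 : foxLin u ≠ 0 := fun h => hne (eq_zero_of_foxLin_eq_zero huΔ h)
    obtain ⟨x, hx⟩ := Finsupp.ne_iff.1 h1
    rw [Finsupp.zero_apply] at hx
    set u' := foxLin u x with hu'
    have hu'mem : ∀ m, u' ∈ (augIdeal K (FreeGroup X)) ^ (m + 1) := fun m =>
      foxLin_mem m (hu (m + 1)) x
    have hsupp' : ∀ v, u'.coeff v ≠ 0 → v.norm < n + 1 ∨ EndsWith false v := by
      intro v hv
      obtain ⟨w, hw, hwv⟩ := exists_of_foxLin_ne_zero (coeffFun x v) u hv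
      rw [coeffFun_apply] at hwv
      have hw' := hsupp w hw
      have hred : FreeGroup.IsReduced w.toWord := FreeGroup.isReduced_toWord
      have hmk : FreeGroup.mk w.toWord = w := FreeGroup.mk_toWord
      rw [← hmk] at hwv
      rcases fox_support_A w.toWord hred x v hwv with h | ⟨_, h⟩
      · left
        have : w.toWord.length = w.norm := rfl
        omega
      · exact Or.inr h
    have hu'Δ : u' ∈ augIdeal K (FreeGroup X) := by
      have := hu'mem 0
      rwa [zero_add, pow_one] at this
    have h2 : foxLin u' ≠ 0 := fun h => hx (eq_zero_of_foxLin_eq_zero hu'Δ h)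
    obtain ⟨y, hy⟩ := Finsupp.ne_iff.1 h2
    rw [Finsupp.zero_apply] at hy
    set u'' := foxLin u' y * single (FreeGroup.of y) (1 : K) with hu''
    have hu''ne : u'' ≠ 0 := by
      intro h
      apply hy
      have h3 : u'' * single (FreeGroup.of y)⁻¹ (1 : K) = foxLin u' y := by
        rw [hu'', mul_assoc, single_mul_single, mul_inv_cancel, mul_one, ← one_def, mul_one]
      rw [← h3, h, zero_mul]
    have hu''mem : ∀ m, u'' ∈ (augIdeal K (FreeGroup X)) ^ (m + 1) := fun m =>
      mul_mem_augIdeal_pow m (foxLin_mem m (hu'mem (m + 1)) y) _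
    have hsupp'' : ∀ v, u''.coeff v ≠ 0 → v.norm ≤ n := by
      intro v hv
      obtain ⟨w, hw, hwv⟩ := exists_of_foxLin_ne_zero (coeffFun' y v) u' hv
      rw [coeffFun'_apply] at hwv
      have hred : FreeGroup.IsReduced w.toWord := FreeGroup.isReduced_toWord
      have hmk : FreeGroup.mk w.toWord = w := FreeGroup.mk_toWord
      have hlen : w.toWord.length = w.norm := rfl
      -- a bound on the norm of `w`
      have hwn : w.norm ≤ n + 1 := by
        obtain ⟨w0, hw0, hw0v⟩ := exists_of_foxLin_ne_zero (coeffFun x w) u hw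
        rw [coeffFun_apply] at hw0v
        have hw0' := hsupp w0 hw0
        have hmk0 : FreeGroup.mk w0.toWord = w0 := FreeGroup.mk_toWord
        rw [← hmk0] at hw0v
        rcases fox_support_A w0.toWord FreeGroup.isReduced_toWord x w hw0v with h | ⟨h, _⟩
        · have : w0.toWord.length = w0.norm := rfl
          omega
        · rw [h, hmk0]; exact hw0'
      rw [← hmk] at hwv
      rcases fox_support_B w.toWord hred y v hwv with h | ⟨h, hend⟩
      · omega
      · rw [hmk] at h
        subst h
        rcases hsupp' v hw with h | h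
        · omega
        · exact absurd h fun h' => not_endsWith_both hend h'
    exact hu''ne (ih u'' hu''mem hsupp'')

/-- **Fox**: the augmentation ideal of `K[F]`, `F` free, is residually nilpotent. -/
theorem free_resNilp (u : MonoidAlgebra K (FreeGroup X))
    (hu : ∀ m, u ∈ (augIdeal K (FreeGroup X)) ^ (m + 1)) : u = 0 := by
  classical
  refine free_resNilp_aux (u.coeff.support.sup FreeGroup.norm) u hu ?_
  intro w hw
  exact Finset.le_sup (f := FreeGroup.norm) (Finsupp.mem_support_iff.2 hw)

/-- Transport along a group isomorphism. -/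
theorem resNilp_of_mulEquiv {N F : Type*} [Group N] [Group F] (e : N ≃* F)
    (H : ∀ u : MonoidAlgebra K F, (∀ m, u ∈ (augIdeal K F) ^ (m + 1)) → u = 0)
    (y : MonoidAlgebra K N) (hy : ∀ m, y ∈ (augIdeal K N) ^ (m + 1)) : y = 0 := by
  have h1 : mapDomainAlgHom K K e.toMonoidHom y = 0 :=
    H _ fun m => mapDomain_mem_augIdeal_pow e.toMonoidHom (m + 1) (hy m)
  have hinj : Function.Injective (mapDomainAlgHom K K e.toMonoidHom) := by
    intro a b hab
    have : mapDomain e a = mapDomain e b := by simpa using hab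
    exact mapDomain_injective e.injective this
  exact hinj (by rw [h1, map_zero])

theorem isFreeGroup_resNilp {N : Type*} [Group N] [IsFreeGroup N]
    (y : MonoidAlgebra K N) (hy : ∀ m, y ∈ (augIdeal K N) ^ (m + 1)) : y = 0 :=
  resNilp_of_mulEquiv (IsFreeGroup.toFreeGroup N) free_resNilp y hy

end Vale.Agent.P194
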