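import Vale.Agent.P194.Basic

/-!
# P194: the augmentation ideal of a finite `p`-group in characteristic `p` is nilpotent
-/

namespace Vale.Agent.P194

open MonoidAlgebra

universe u v

variable {K : Type v} [CommRing K]

lemma augIdeal_eq_bot_of_subsingleton (P : Type u) [Group P] [Subsingleton P] :
    augIdeal K P = ⊥ := by
  rw [eq_bot_iff]
  intro x hx
  rw [mem_augIdeal] at hx
  have hx1 : x = single 1 (x.coeff 1) := by
    ext g
    rw [Subsingleton.elim g 1]
    simp
  rw [hx1, aug_single] at hx
  rw [Submodule.mem_bot, hx1, hx, single_zero]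

/-- Powers of the principal ideal generated by a central element. -/
lemma pow_le_of_central {A : Type*} [Ring A] [Algebra K A] (c : A) (hc : ∀ y, Commute c y)
    (J : Submodule K A) (hJ : ∀ x ∈ J, ∃ y, x = c * y) (k : ℕ) :
    ∀ x ∈ J ^ (k + 1), ∃ y, x = c ^ (k + 1) * y := by
  induction k with
  | zero => intro x hx; simpa using hJ x (by simpa using hx)
  | succ k ih =>
    intro x hx
    rw [pow_succ'] at hx
    refine Submodule.mul_induction_on hx ?_ ?_
    · intro a ha b hb
      obtain ⟨y, rfl⟩ := hJ a ha
      obtain ⟨y', rfl⟩ := ih b hb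
      refine ⟨y * y', ?_⟩
      have h1 : y * c ^ (k + 1) = c ^ (k + 1) * y := ((hc y).pow_left (k + 1)).eq.symm
      calc c * y * (c ^ (k + 1) * y') = c * (y * c ^ (k + 1)) * y' := by simp only [mul_assoc]
        _ = c * (c ^ (k + 1) * y) * y' := by rw [h1]
        _ = c ^ (k + 1 + 1) * (y * y') := by rw [pow_succ' c (k + 1)]; simp only [mul_assoc]
    · rintro a b ⟨y, rfl⟩ ⟨y', rfl⟩
      exact ⟨y + y', by rw [mul_add]⟩

theorem augIdeal_nilpotent (p : ℕ) [Fact p.Prime] [CharP K p] :
    ∀ (c : ℕ) (P : Type u) [Group P] [Finite P], Nat.card P = c → IsPGroup p P →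
      ∃ m : ℕ, (augIdeal K P) ^ (m + 1) = ⊥ := by
  intro c
  induction c using Nat.strong_induction_on with
  | _ c ih =>
    intro P _ _ hcard hP
    rcases subsingleton_or_nontrivial P with hsub | hnt
    · exact ⟨0, by rw [zero_add, pow_one, augIdeal_eq_bot_of_subsingleton]⟩
    · -- a central element of order `p`
      have := hP.center_nontrivial
      have hPc : IsPGroup p (Subgroup.center P) := hP.to_subgroup _
      obtain ⟨n, hn, hcn⟩ := (hPc.nontrivial_iff_card).1 inferInstance
      have hdvd : p ∣ Nat.card (Subgroup.center P) := by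
        rw [hcn]; exact dvd_pow_self p hn.ne'
      obtain ⟨z, hz⟩ := exists_prime_orderOf_dvd_card' p hdvd
      have hzc : ∀ g : P, Commute (z : P) g := fun g =>
        ((Subgroup.mem_center_iff.1 z.2) g).symm
      have hzo : orderOf (z : P) = p := by rw [Subgroup.orderOf_coe, hz]
      let Z : Subgroup P := Subgroup.zpowers (z : P)
      have hZn : Z.Normal := by
        constructor
        intro a ha g
        obtain ⟨i, rfl⟩ := Subgroup.mem_zpowers_iff.1 ha
        have : g * (z : P) ^ i * g⁻¹ = (z : P) ^ i := by
          have := ((hzc g).zpow_left i).eq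
          rw [← this, mul_assoc, mul_inv_cancel, mul_one]
        rw [this]; exact ha
      have hcZ : Nat.card Z = p := by rw [Nat.card_zpowers, hzo]
      have hlt : Nat.card (P ⧸ Z) < c := by
        have h1 := Subgroup.card_eq_card_quotient_mul_card_subgroup Z
        rw [hcard, hcZ] at h1
        have hpos : 0 < Nat.card (P ⧸ Z) := Nat.card_pos
        have hp2 : 2 ≤ p := (Fact.out : p.Prime).two_le
        nlinarith
      obtain ⟨m, hm⟩ := ih _ hlt (P ⧸ Z) rfl (hP.to_quotient Z)
      let q : P →* P ⧸ Z := QuotientGroup.mk' Z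
      let cc : MonoidAlgebra K P := single (z : P) 1 - 1
      have hcc : ∀ y, Commute cc y := by
        intro y
        exact (single_commute (fun m' => hzc m') (fun r' => Commute.all _ _) y).sub_left
          (Commute.one_left y)
      have : CharP (MonoidAlgebra K P) p :=
        charP_of_injective_algebraMap (R := K) (A := MonoidAlgebra K P)
          (by
            intro a b hab
            rw [MonoidAlgebra.coe_algebraMap] at hab
            simpa using hab) p
      have hccp : cc ^ p = 0 := by
        have h1 : cc ^ p = (single (z : P) (1 : K)) ^ p - 1 ^ p :=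
          sub_pow_char_of_commute p (Commute.one_right _)
        rw [h1, single_pow, ← hzo, pow_orderOf_eq_one, one_pow, one_pow, one_def, sub_self]
      -- `Δ ^ (m+1)` lies in the kernel ideal
      have hle : (augIdeal K P) ^ (m + 1) ≤ kerSpan K q := by
        refine le_trans ?_ (kerIdeal_le_kerSpan q)
        intro x hx
        have := mapDomain_mem_augIdeal_pow (K := K) q (m + 1) hx
        rw [hm, Submodule.mem_bot] at this
        rwa [mem_kerIdeal]
      have hJ : ∀ x ∈ kerSpan K q, ∃ y, x = cc * y := by
        intro x hx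
        induction hx using Submodule.span_induction with
        | mem x hx =>
          obtain ⟨ν, g, rfl⟩ := hx
          have hν : (ν : P) ∈ Z := by
            have h2 : (ν : P) ∈ q.ker := ν.2
            have h3 : q.ker = Z := QuotientGroup.ker_mk' Z
            generalize (ν : P) = ν' at h2 ⊢
            rwa [h3] at h2
          obtain ⟨k, hk⟩ := (mem_powers_iff_mem_zpowers).2 hν
          refine ⟨(∑ i ∈ Finset.range k, (single (z : P) (1 : K)) ^ i) * single g 1, ?_⟩
          rw [← mul_assoc, mul_geom_sum, single_pow, one_pow]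
          simp only at hk
          rw [hk]
        | zero => exact ⟨0, by simp⟩
        | add a b _ _ ha hb =>
          obtain ⟨y, rfl⟩ := ha
          obtain ⟨y', rfl⟩ := hb
          exact ⟨y + y', by rw [mul_add]⟩
        | smul r a _ ha =>
          obtain ⟨y, rfl⟩ := ha
          exact ⟨r • y, by rw [mul_smul_comm]⟩
      have hp1 : p = (p - 1) + 1 := by
        have : 1 ≤ p := (Fact.out : p.Prime).one_lt.le
        omega
      refine ⟨(m + 1) * p - 1, ?_⟩
      have hmp : (m + 1) * p - 1 + 1 = (m + 1) * p := by
        have : 1 ≤ (m + 1) * p := Nat.mul_pos (Nat.succ_pos m) (Fact.out : p.Prime).pos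
        omega
      rw [hmp, pow_mul, eq_bot_iff]
      intro x hx
      have hx' : x ∈ (kerSpan K q) ^ (p - 1 + 1) := by
        rw [← hp1]; exact pow_le_pow_left' hle p hx
      obtain ⟨y, rfl⟩ := pow_le_of_central cc hcc _ hJ (p - 1) x hx'
      rw [← hp1, hccp, zero_mul]; exact Submodule.zero_mem _

end Vale.Agent.P194
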