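import Vale.Agent.P194.PGroup

/-!
# P194: residually-`p` groups have residually nilpotent augmentation ideal in characteristic `p`
-/

namespace Vale.Agent.P194

open MonoidAlgebra

universe u v

variable {K : Type v} [CommRing K]

lemma isPGroup_prod {p : ℕ} {P P' : Type*} [Group P] [Group P'] (h : IsPGroup p P)
    (h' : IsPGroup p P') : IsPGroup p (P × P') := by
  rintro ⟨a, b⟩
  obtain ⟨i, hi⟩ := h a
  obtain ⟨j, hj⟩ := h' b
  refine ⟨i + j, ?_⟩
  ext
  · simp [pow_add, pow_mul, hi]
  · simp [pow_add, mul_comm (p ^ i), pow_mul, hj]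

/-- Separation of a finite set of nontrivial elements in a finite `p`-group quotient. -/
lemma exists_sep {p : ℕ} [Fact p.Prime] {N : Type u} [Group N]
    (hres : ∀ x : N, x ≠ 1 → ∃ M : Subgroup N, M.Normal ∧ (∃ k : ℕ, M.index = p ^ k) ∧ x ∉ M)
    (s : Finset N) (hs : ∀ x ∈ s, x ≠ 1) :
    ∃ (P : Type u) (_ : Group P) (_ : Finite P) (_ : IsPGroup p P) (f : N →* P),
      ∀ x ∈ s, f x ≠ 1 := by
  classical
  induction s using Finset.induction_on with
  | empty =>
    exact ⟨PUnit, inferInstance, inferInstance, fun _ => ⟨0, rfl⟩, 1, by simp⟩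
  | insert a s _ ih =>
    obtain ⟨P, _, _, hP, f, hf⟩ := ih fun x hx => hs x (Finset.mem_insert_of_mem hx)
    obtain ⟨M, hM, ⟨k, hk⟩, haM⟩ := hres a (hs a (Finset.mem_insert_self a s))
    have hfin : Finite (N ⧸ M) := by
      apply Nat.finite_of_card_ne_zero
      rw [← Subgroup.index_eq_card, hk]
      exact pow_ne_zero _ (Fact.out : p.Prime).ne_zero
    have hPM : IsPGroup p (N ⧸ M) := IsPGroup.of_card (n := k) (by rw [← Subgroup.index_eq_card, hk])
    refine ⟨P × (N ⧸ M), inferInstance, inferInstance, isPGroup_prod hP hPM,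
      f.prod (QuotientGroup.mk' M), ?_⟩
    intro x hx
    rcases Finset.mem_insert.1 hx with rfl | hx
    · intro h
      have h2 := congrArg Prod.snd h
      simp only [MonoidHom.prod_apply, QuotientGroup.mk'_apply, Prod.snd_one] at h2
      exact haM ((QuotientGroup.eq_one_iff x).1 h2)
    · intro h
      have h1 := congrArg Prod.fst h
      exact hf x hx h1

/-- In characteristic `p` the augmentation ideal of a residually-`p` group is residually
nilpotent. -/
theorem resNilp_of_resP (p : ℕ) [Fact p.Prime] [CharP K p] {N : Type u} [Group N]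
    (hres : ∀ x : N, x ≠ 1 → ∃ M : Subgroup N, M.Normal ∧ (∃ k : ℕ, M.index = p ^ k) ∧ x ∉ M)
    (y : MonoidAlgebra K N) (hy : ∀ m, y ∈ (augIdeal K N) ^ (m + 1)) : y = 0 := by
  classical
  by_contra hne
  let supp := y.coeff.support
  let s : Finset N := ((supp ×ˢ supp).filter fun ab => ab.1 ≠ ab.2).image fun ab => ab.1 * ab.2⁻¹
  have hs : ∀ x ∈ s, x ≠ 1 := by
    intro x hx
    obtain ⟨⟨a, b⟩, hab, rfl⟩ := Finset.mem_image.1 hx
    have := (Finset.mem_filter.1 hab).2
    simpa [mul_inv_eq_one] using this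
  obtain ⟨P, _, _, hP, f, hf⟩ := exists_sep hres s hs
  obtain ⟨m, hm⟩ := augIdeal_nilpotent (K := K) p (Nat.card P) P rfl hP
  have h0 : mapDomainAlgHom K K f y = 0 := by
    have := mapDomain_mem_augIdeal_pow (K := K) f (m + 1) (hy m)
    rwa [hm, Submodule.mem_bot] at this
  have hinj : Set.InjOn f (supp : Set N) := by
    intro a ha b hb hab
    by_contra hne'
    have hmem : a * b⁻¹ ∈ s := by
      refine Finset.mem_image.2 ⟨(a, b), ?_, rfl⟩
      exact Finset.mem_filter.2 ⟨Finset.mem_product.2 ⟨ha, hb⟩, hne'⟩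
    apply hf _ hmem
    rw [map_mul, map_inv, hab, mul_inv_cancel]
  apply hne
  ext a
  by_cases ha : a ∈ supp
  · have h1 : (mapDomain f y).coeff (f a) = y.coeff a := by
      simp only [mapDomain]
      exact Finsupp.mapDomain_apply' (supp : Set N) y.coeff (subset_refl _) hinj ha
    have h2 : mapDomain f y = 0 := by simpa using h0
    rw [← h1, h2]; simp
  · simpa [supp] using ha

end Vale.Agent.P194
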